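import Vale.Agent.P263.AD.FreuCh
import Vale.Agent.P246.T.CL
import Mathlib.LinearAlgebra.Basis.VectorSpace
import Mathlib.Algebra.Module.ZMod
import Mathlib.Algebra.Field.ZMod

/-!
# Extension of mod 2 cocycles over families of cells
-/

open Topology Set Vale.Agent.P246.T Vale.Agent.P246.T.FM

namespace Vale.Agent.P263B33

open Vale.Agent.P263.AD.Freu

/-- extension of an additive map to `ZMod 2` -/
theorem exists_ext {A B C : Type} [AddCommGroup A] [AddCommGroup B] [AddCommGroup C]
    (f : A →ₗ[ℤ] C) (d : B →ₗ[ℤ] C) (u : A →ₗ[ℤ] ZMod 2)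
    (h : ∀ a b c, f a = d b + (2 : ℤ) • c → u a = 0) :
    ∃ U : C →ₗ[ℤ] ZMod 2, (∀ b, U (d b) = 0) ∧ ∀ a, U (f a) = u a := by
  let S : Submodule ℤ C := LinearMap.range d ⊔ LinearMap.range (LinearMap.lsmul ℤ C 2)
  have h2 : ∀ x : C ⧸ S, 2 • x = 0 := by
    intro x
    obtain ⟨c, rfl⟩ := S.mkQ_surjective x
    rw [← map_nsmul]
    refine (Submodule.Quotient.mk_eq_zero S).2 (Submodule.mem_sup_right ⟨c, ?_⟩)
    simp [two_smul]
  let _ : Module (ZMod 2) (C ⧸ S) := AddCommGroup.zmodModule h2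
  let g : A →ₗ[ℤ] C ⧸ S := S.mkQ ∘ₗ f
  have hk : LinearMap.ker g ≤ LinearMap.ker u := by
    intro a ha
    obtain ⟨_, ⟨b, rfl⟩, _, ⟨c, rfl⟩, e⟩ :=
      Submodule.mem_sup.1 ((Submodule.Quotient.mk_eq_zero S).1 ha)
    exact h a b c e.symm
  let R : Submodule (ZMod 2) (C ⧸ S) :=
    AddSubgroup.toZModSubmodule 2 (LinearMap.range g).toAddSubgroup
  let v : LinearMap.range g →ₗ[ℤ] ZMod 2 :=
    ((LinearMap.ker g).liftQ u hk) ∘ₗ g.quotKerEquivRange.symm.toLinearMap
  have hv : ∀ a, v ⟨g a, a, rfl⟩ = u a := fun a => by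
    have h3 : g.quotKerEquivRange.symm ⟨g a, a, rfl⟩ = (LinearMap.ker g).mkQ a :=
      LinearMap.quotKerEquivRange_symm_apply_image g a _
    change (LinearMap.ker g).liftQ u hk (g.quotKerEquivRange.symm ⟨g a, a, rfl⟩) = _
    rw [h3]
    rfl
  let w : R →+ ZMod 2 :=
    { toFun := fun x => v ⟨x.1, x.2⟩
      map_zero' := map_zero v
      map_add' := fun x y => map_add v ⟨x.1, x.2⟩ ⟨y.1, y.2⟩ }
  obtain ⟨W, hW⟩ := LinearMap.exists_extend (w.toZModLinearMap 2)
  refine ⟨W.toAddMonoidHom.toIntLinearMap ∘ₗ S.mkQ, fun b => ?_, fun a => ?_⟩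
  · have : S.mkQ (d b) = 0 :=
      (Submodule.Quotient.mk_eq_zero S).2 (Submodule.mem_sup_left ⟨b, rfl⟩)
    rw [LinearMap.comp_apply, this, map_zero]
  · exact (LinearMap.congr_fun hW ⟨g a, a, rfl⟩).trans (hv a)

variable {X M : Type} [TopologicalSpace X] [TopologicalSpace M]

theorem con_of_two {A : Set M} {k : ℕ} {c : Ch k M} (h : (2 : ℤ) • c ∈ Con A k) : c ∈ Con A k := by
  rw [Vale.Agent.P246.T.Con, Finsupp.mem_supported] at h ⊢
  intro σ hσ
  apply h
  rw [Finset.mem_coe, Finsupp.mem_support_iff] at hσ ⊢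
  rw [Finsupp.smul_apply, smul_eq_mul]
  exact mul_ne_zero two_ne_zero hσ

/-- extension of a cocycle along an embedding -/
theorem ext_of {f : C(X, M)} (hf : IsEmbedding f) {k : ℕ} (u : Ch k X →ₗ[ℤ] ZMod 2)
    (hT : ∀ c : Ch k M, RCyc (range f) k c → Null univ (range f) k ((2 : ℤ) • c) →
      Null univ (range f) k c)
    (hK : ∀ a b, push f k a = bd k b → u a = 0) :
    ∃ U : Ch k M →ₗ[ℤ] ZMod 2, (∀ b, U (bd k b) = 0) ∧ ∀ a, U (push f k a) = u a := by
  refine exists_ext (push f k) (bd k) u fun a b c e => ?_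
  have e1 : (2 : ℤ) • c = push f k a - bd k b := by rw [e]; abel
  have hn : Null univ (range f) k ((2 : ℤ) • c) :=
    ⟨-b, mem_univ_con _ _, by
      rw [e1, map_neg, sub_neg_eq_add, sub_add_cancel]
      exact push_mem_range f a⟩
  have hr : RCyc (range f) k c := by
    have h3 := PR.null_rcyc hn
    cases k with
    | zero => trivial
    | succ k =>
      refine con_of_two (c := bd k c) ?_
      rw [← map_smul]
      exact h3
  obtain ⟨b', -, hb'⟩ := hT c hr hn
  obtain ⟨a', ha'⟩ := exists_push_range hf hb'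
  have h4 := hK (a - (2 : ℤ) • a') (b + (2 : ℤ) • b') (by
    rw [map_sub, map_smul, ha', e, map_add, map_smul, smul_sub]
    abel)
  have h5 : (2 : ℤ) • u a' = 0 := by
    rw [two_smul]
    exact CharTwo.add_self_eq_zero _
  rwa [map_sub, map_smul, h5, sub_zero] at h4

/-- **extension of a cocycle over a family of cells**: if the cells have dimension `k + 1`, the
cocycle has to vanish on the boundaries of the cells. -/
theorem ext_cells {f : C(X, M)} (hf : IsEmbedding f) {n : ℕ} {Γ : Type} {Φ : Γ → C(Dk n, M)}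
    (hC : CellData n Γ univ (range f) Φ) {ζ : Ch n (Dk n)} (hζ : IsFund n ζ) {k : ℕ}
    (u : Ch k X →ₗ[ℤ] ZMod 2) (hu : ∀ b, u (bd k b) = 0)
    (hb : ∀ e : n = k + 1, ∀ g a, push f k a = bd k (push (Φ g) (k + 1) (e ▸ ζ)) → u a = 0) :
    ∃ U : Ch k M →ₗ[ℤ] ZMod 2, (∀ b, U (bd k b) = 0) ∧ ∀ a, U (push f k a) = u a := by
  obtain ⟨h1, h2, h3⟩ := CL.main M n Γ univ (range f) Φ ζ hζ hC
  refine ext_of hf u (fun c hr hn => ?_) fun a b e => ?_
  · by_cases hk : k = n
    · subst hk
      obtain ⟨m, hm⟩ := h2 c (mem_univ_con _ _) hr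
      have h4 := PR.null_smul 2 hm
      rw [smul_sub] at h4
      have h5 := (PR.null_iff h4).1 hn
      have h6 : ((2 : ℤ) • m).sum (fun g a => a • push (Φ g) k ζ) =
          (2 : ℤ) • m.sum fun g a => a • push (Φ g) k ζ := by
        rw [Finsupp.sum_smul_index' (h := fun g (a : ℤ) => a • push (Φ g) k ζ)
          (fun _ => zero_smul _ _), Finsupp.smul_sum]
        simp only [smul_eq_mul, mul_smul]
      have h7 : m = 0 := by
        have := h3 _ (h6 ▸ h5)
        exact (smul_eq_zero.1 this).resolve_left two_ne_zero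
      rwa [h7, Finsupp.sum_zero_index, sub_zero] at hm
    · exact h1 k hk c (mem_univ_con _ _) hr
  · have hr : RCyc (range f) (k + 1) b := by
      change bd k b ∈ _
      rw [← e]
      exact push_mem_range f a
    by_cases hk : k + 1 = n
    · subst hk
      obtain ⟨m, b', -, hm⟩ := h2 b (mem_univ_con _ _) hr
      obtain ⟨a', ha'⟩ := exists_push_range hf hm
      have h4 : ∀ g, ∃ s, push f k s = bd k (push (Φ g) (k + 1) ζ) := fun g => by
        refine exists_push_range hf ?_
        rw [push_bd]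
        exact push_mem (fun x hx => hC.bdry g x hx) hζ.cyc
      choose s hs using h4
      have h5 : a = bd k a' + m.sum fun g c => c • s g := by
        apply PR.push_injective hf.injective k
        rw [map_add, ← push_bd, ha', map_sub, map_sub, PR.bd_bd, e, map_finsuppSum, map_finsuppSum]
        simp only [map_smul, hs]
        abel
      rw [h5, map_add, hu, map_finsuppSum, zero_add]
      refine Finset.sum_eq_zero fun g _ => ?_
      simp only [map_smul, hb rfl g (s g) (hs g), smul_zero]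
    · obtain ⟨b', -, hm⟩ := h1 (k + 1) hk b (mem_univ_con _ _) hr
      obtain ⟨a', ha'⟩ := exists_push_range hf hm
      have h5 : a = bd k a' := by
        apply PR.push_injective hf.injective k
        rw [← push_bd, ha', map_sub, PR.bd_bd, e, sub_zero]
      rw [h5, hu]

end Vale.Agent.P263B33
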