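import Vale.Agent.P263B15.Rows
import Vale.Agent.P263B33.Ext0

/-!
# The rows `EXT1` and `EXT2`
-/

open Vale.Agent.P263B15

namespace Vale.Agent.P263B33

theorem ext1 : EXT1 := fun _ _ _ _ _ hi n _ _ hC _ u hu hn =>
  ext_cells hi hC (Vale.Agent.P263.T0.SphH.fund_hm n) u hu fun e => absurd e hn

theorem ext2 : EXT2 := fun _ _ _ _ _ hi p _ _ hC u hu hb =>
  ext_cells hi hC (Vale.Agent.P263.T0.SphH.fund_hm (p + 1)) u hu fun _ g a e => hb g a e

end Vale.Agent.P263B33
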