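import Vale.Agent.P263B15.Rows

/-!
# The row `LOOPY`: the class on the loop space
-/

open Topology Set OnePoint

namespace Vale.Agent.P263B33

open Vale.Agent.P263B15 Vale.Agent.P246.T Vale.Agent.P263.AD.Freu
open Vale.Agent.P263 Vale.Agent.P263.FR Vale.Agent.P263.TJ Vale.Agent.P263.G2 Vale.Agent.P263.E

variable {X : Type} [TopologicalSpace X]

theorem d_eq_fn (w : Cc (sing X)) {p : ℕ} (v : Fn p X)
    (h : ∀ σ, v (Finsupp.single σ 1) = w p (ofC σ)) (σ : C(P246.T.Dl (p + 2), X)) :
    Cc.d w (p + 1) (ofC σ) = v (bd p (Finsupp.single σ 1)) := by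
  rw [d_succ_apply, bd_single, map_sum, Finset.sum_range]
  refine Finset.sum_congr rfl fun i _ => ?_
  have h1 : (Finsupp.single (σ.comp (face (p + 1) i)) (1 * (-1 : ℤ) ^ (i : ℕ)) : Ch p X) =
      ((-1 : ℤ) ^ (i : ℕ)) • Finsupp.single (σ.comp (face (p + 1) i)) 1 := by
    rw [Finsupp.smul_single, smul_eq_mul, mul_comm]
  rw [h1, LinearMap.map_smul, h, map_ofC, T0.SphH.dmap_dl]
  rcases neg_one_pow_eq_or ℤ (i : ℕ) with e | e <;> rw [e]
  · exact (one_smul _ _).symm
  · rw [neg_one_smul, CharTwo.neg_eq]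

/-- the additive function of a cochain -/
noncomputable def fnOf (p : ℕ) (w : Cc (sing X)) : Fn p X :=
  Finsupp.linearCombination ℤ fun σ => w p (ofC σ)

theorem fnOf_single (p : ℕ) (w : Cc (sing X)) (σ : C(P246.T.Dl (p + 1), X)) :
    fnOf p w (Finsupp.single σ 1) = w p (ofC σ) := by
  rw [fnOf, Finsupp.linearCombination_single, one_smul]

theorem isCoc_fnOf (p : ℕ) {w : Cc (sing X)} (hw : Cc.d w = 0) : IsCoc (fnOf p w) := by
  intro b
  induction b using Finsupp.induction_linear with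
  | zero => simp only [map_zero]
  | add a b ha hb => simp only [map_add, ha, hb, add_zero]
  | single σ a =>
    have h1 : (Finsupp.single σ a : Ch (p + 1) X) = a • Finsupp.single σ 1 := by
      rw [Finsupp.smul_single, smul_eq_mul, mul_one]
    rw [h1, LinearMap.map_smul, LinearMap.map_smul, ← d_eq_fn w _ (fnOf_single p w), hw]
    exact smul_zero a

/-- the cochain of an additive function -/
noncomputable def ccOf {p : ℕ} (v : Fn p X) : Cc (sing X) := fun k σ =>
  if h : k = p then v (Finsupp.single (toC (h ▸ σ)) 1) else 0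

theorem ccOf_self {p : ℕ} (v : Fn p X) (σ : (sing X).obj p) :
    ccOf v p σ = v (Finsupp.single (toC σ) 1) := dif_pos rfl

theorem isDeg_ccOf {p : ℕ} (v : Fn p X) : Cc.IsDeg p (ccOf v) := fun _ h _ => dif_neg h

theorem d_ccOf {p : ℕ} {v : Fn p X} (hv : IsCoc v) : Cc.d (ccOf v) = 0 := by
  funext k σ
  rcases k with _ | k
  · exact d_zero_apply _ σ
  · by_cases h : k = p
    · subst h
      exact (d_eq_fn (ccOf v) v (fun τ => (ccOf_self v (ofC τ)).symm) (toC σ)).trans (hv _)
    · rw [d_succ_apply]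
      exact Finset.sum_eq_zero fun i _ => isDeg_ccOf v k h _

/-- the evaluation map -/
noncomputable def evl (z : X) : SS.Map ((sing (Lp z)).prod (SN 1)) (sing X) :=
  ⟨fun s => ofC ⟨fun t => (toC s.1 t).1.1 (chiI (s.2 0) t),
    continuous_pp (continuous_subtype_val.comp (toC s.1).continuous) (chiI (s.2 0)).continuous⟩,
    fun f s => ContinuousMap.ext fun t =>
      congrArg (toC s.1 (dmap f t)).1.1 (DFunLike.congr_fun (chiI_comp (s.2 0) f) t)⟩

theorem evl_base (z : X) {p : ℕ} {s : ((sing (Lp z)).prod (SN 1)).obj p}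
    (h : (bdX (sing (Lp z)) 1).mem s) : (evl z).app s = ofC (ContinuousMap.const _ z) := by
  obtain ⟨i, h⟩ := h
  obtain rfl : i = 0 := Subsingleton.elim _ _
  refine ContinuousMap.ext fun t => ?_
  change (toC s.1 t).1.1 (chiI (s.2 0) t) = z
  rcases h with h | h
  · rw [show s.2 0 = S.c0 p from h, chiI_c0]
    exact (toC s.1 t).1.2
  · rw [show s.2 0 = S.c1 p from h, chiI_c1]
    exact (toC s.1 t).2

theorem loopy : LOOPY := by
  intro P _ _ _ q x hq hx
  refine ⟨fnOf (q + 1) (jR 0 hq hx).b, isCoc_fnOf _ (jR 0 hq hx).d_b, fun Z _ i v hv e => ?_⟩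
  have h1 : Cc.pull (singMap i) (ccOf v) = (jR 0 hq hx).b := by
    funext k σ
    by_cases h : k = q + 1
    · subst h
      refine (ccOf_self v _).trans ?_
      refine Eq.trans ?_ ((e _).trans (fnOf_single (q + 1) (jR 0 hq hx).b (toC σ)))
      rw [P246.T.push_single]
      rfl
    · exact (isDeg_ccOf v k h _).trans (jR_deg_b hq hx k h σ).symm
  have h2 : Vn (bdX (sing (Lp (i ∞))) 1) (Cc.pull (evl (i ∞)) (ccOf v)) := fun p s hs => by
    rw [pull_apply, evl_base _ hs]
    exact (congrFun (congrFun h1 p) (ofC (ContinuousMap.const _ ∞))).trans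
      ((jR 0 hq hx).vn_b p _ fun _ => rfl)
  let g : C(P, PP (i ∞)) := mkP (fun s => i (smP 1 P (tup fun _ => GB.loopU s.2, s.1)))
    (i.continuous.comp ((smP 1 P).continuous.comp ((continuous_tup.comp (continuous_pi fun _ =>
      GB.loopU.continuous.comp continuous_snd)).prodMk continuous_fst)))
    fun p => congrArg (fun w => i (smP 1 P (w, p))) (tup_of_eq_infty (i := 0) GB.loopE_zero)
  let f : C(P, Lp (i ∞)) := ⟨fun p => ⟨g p,
    congrArg (fun w => i (smP 1 P (w, p))) (tup_of_eq_infty (i := 0) GB.loopE_one)⟩,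
    g.continuous.subtype_mk _⟩
  refine ⟨f, DstN 1 (Cc.pull (evl (i ∞)) (ccOf v)), isDeg_DstN ((isDeg_ccOf v).pull _), ?_, ?_⟩
  · rw [← DstN_d h2, ← pull_d, d_ccOf hv, pull_zero, DstN_zero]
  · have h3 : Cc.pull (SS.pair ((singMap f).comp (SS.fst (sing P) (SN 1))) (SS.snd (sing P) (SN 1)))
        (Cc.pull (evl (i ∞)) (ccOf v)) = Cc.pull (muT 1 P) (jR 0 hq hx).b := by
      rw [← h1]
      funext p s
      refine congrArg (ccOf v p) (ContinuousMap.ext fun t => ?_)
      exact congrArg (fun w => i (smP 1 P (tup w, toC s.1 t)))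
        (funext fun j => by rw [Subsingleton.elim j 0]; rfl)
    rw [← DstN_pull, h3]
    exact DstN_jR hq hx

end Vale.Agent.P263B33
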